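import Vale.Agent.P202.Mix.Ultra

/-!
P177, block LIM: the stabilised additive length `L.stab h`, `len M = inf_c L.len (h ^ c M)`.
-/

namespace Vale.Agent.P177.Lim

open Vale.Agent.P202.Mix
open scoped ENNReal

universe u

section Basic

variable {R : Type u} [CommRing R] (L : AddLen R)
variable {M N K : Type u} [AddCommGroup M] [Module R M]
  [AddCommGroup N] [Module R N] [AddCommGroup K] [Module R K]

theorem len_le_of_inj (f : M →ₗ[R] N) (hf : Function.Injective f) : L.len M ≤ L.len N := by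
  rw [len_sub_quot L (LinearMap.range f), len_congr L (LinearEquiv.ofInjective f hf)]
  exact le_self_add

theorem len_le_of_surj (f : M →ₗ[R] N) (hf : Function.Surjective f) : L.len N ≤ L.len M := by
  rw [len_sub_quot L (LinearMap.ker f), ← len_congr L (f.quotKerEquivOfSurjective hf)]
  exact le_add_self

theorem len_sub_mono {X Y : Submodule R M} (h : X ≤ Y) : L.len X ≤ L.len Y :=
  len_le_of_inj L (Submodule.inclusion h) (Submodule.inclusion_injective h)

theorem len_range_le (f : M →ₗ[R] N) : L.len (LinearMap.range f) ≤ L.len M :=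
  len_le_of_surj L f.rangeRestrict f.surjective_rangeRestrict

theorem len_sub_le (X : Submodule R M) : L.len X ≤ L.len M :=
  len_le_of_inj L X.subtype X.injective_subtype

theorem len_quot_le (X : Submodule R M) : L.len (M ⧸ X) ≤ L.len M :=
  len_le_of_surj L X.mkQ X.mkQ_surjective

/-- length and maps: `len M = len (ker f) + len (range f)`. -/
theorem len_ker_range (f : M →ₗ[R] N) :
    L.len M = L.len (LinearMap.ker f) + L.len (LinearMap.range f) := by
  rw [len_sub_quot L (LinearMap.ker f), len_congr L f.quotKerEquivRange]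

/-- exact in the middle: `len N ≤ len M + len K`. -/
theorem len_le_of_exact (f : M →ₗ[R] N) (g : N →ₗ[R] K) (h : Function.Exact f g) :
    L.len N ≤ L.len M + L.len K := by
  rw [len_ker_range L g]
  refine add_le_add ?_ (len_sub_le L _)
  have : LinearMap.ker g = LinearMap.range f := by
    rw [LinearMap.exact_iff] at h
    exact h
  rw [this]
  exact len_range_le L f

/-- the submodule `h ^ c M`. -/
def pw (h : R) (c : ℕ) (M : Type u) [AddCommGroup M] [Module R M] : Submodule R M :=
  LinearMap.range (LinearMap.lsmul R M (h ^ c))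

theorem mem_pw {h : R} {c : ℕ} {x : M} : x ∈ pw h c M ↔ ∃ y : M, h ^ c • y = x := by
  simp [pw]

theorem pw_anti (h : R) {c c' : ℕ} (hc : c ≤ c') : pw h c' M ≤ pw h c M := by
  intro x hx
  obtain ⟨y, rfl⟩ := mem_pw.1 hx
  obtain ⟨d, rfl⟩ := Nat.exists_eq_add_of_le hc
  exact mem_pw.2 ⟨h ^ d • y, by rw [smul_smul, ← pow_add]⟩

theorem len_pw_anti (h : R) : Antitone fun c => L.len (pw h c M) :=
  fun _ _ hc => len_sub_mono L (pw_anti h hc)

theorem iInf_add_of_antitone {a b : ℕ → ℝ≥0∞} (ha : Antitone a) (hb : Antitone b) :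
    (⨅ c, a c) + (⨅ c, b c) = ⨅ c, (a c + b c) := by
  refine ENNReal.iInf_add_iInf fun i j => ⟨max i j, ?_⟩
  exact add_le_add (ha (le_max_left _ _)) (hb (le_max_right _ _))

/-- the lower bound. -/
theorem len_pw_ge (h : R) (c : ℕ) (f : M →ₗ[R] N) (g : N →ₗ[R] K)
    (hf : Function.Injective f) (hg : Function.Surjective g) (hfg : Function.Exact f g) :
    L.len (pw h c M) + L.len (pw h c K) ≤ L.len (pw h c N) := by
  have h1 : ∀ x ∈ pw h c M, f x ∈ pw h c N := by
    intro x hx
    obtain ⟨y, rfl⟩ := mem_pw.1 hx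
    exact mem_pw.2 ⟨f y, by rw [map_smul]⟩
  have h2 : ∀ x ∈ pw h c N, g x ∈ pw h c K := by
    intro x hx
    obtain ⟨y, rfl⟩ := mem_pw.1 hx
    exact mem_pw.2 ⟨g y, by rw [map_smul]⟩
  let f' : pw h c M →ₗ[R] pw h c N := f.restrict h1
  let g' : pw h c N →ₗ[R] pw h c K := g.restrict h2
  have hg' : Function.Surjective g' := by
    rintro ⟨x, hx⟩
    obtain ⟨y, rfl⟩ := mem_pw.1 hx
    obtain ⟨z, rfl⟩ := hg y
    exact ⟨⟨h ^ c • z, mem_pw.2 ⟨z, rfl⟩⟩, Subtype.ext (map_smul g _ _)⟩
  rw [len_ker_range L g', LinearMap.range_eq_top.2 hg',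
    len_congr L (Submodule.topEquiv (R := R) (M := pw h c K))]
  refine add_le_add ?_ le_rfl
  have h3 : ∀ x, f' x ∈ LinearMap.ker g' := by
    intro x
    refine Subtype.ext ?_
    show g (f x.1) = 0
    exact (hfg _).2 ⟨_, rfl⟩
  refine len_le_of_inj L (f'.codRestrict _ h3) ?_
  intro x y hxy
  have h4 := congrArg (fun z => ((z : LinearMap.ker g').1 : pw h c N).1) hxy
  exact Subtype.ext (hf h4)

/-- the upper bound. -/
theorem len_pw_le (h : R) (a b : ℕ) (f : M →ₗ[R] N) (g : N →ₗ[R] K)
    (hfg : Function.Exact f g) :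
    L.len (pw h (a + b) N) ≤ L.len (pw h a M) + L.len (pw h b K) := by
  let P : Submodule R N := (pw h b K).comap g
  let φ : P →ₗ[R] N := (LinearMap.lsmul R N (h ^ a)) ∘ₗ P.subtype
  have h0 : pw h (a + b) N ≤ LinearMap.range φ := by
    intro x hx
    obtain ⟨y, rfl⟩ := mem_pw.1 hx
    refine ⟨⟨h ^ b • y, ?_⟩, ?_⟩
    · show g (h ^ b • y) ∈ pw h b K
      exact mem_pw.2 ⟨g y, by rw [map_smul]⟩
    · show h ^ a • h ^ b • y = _
      rw [smul_smul, ← pow_add]
  refine (len_sub_mono L h0).trans ?_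
  let N0 : Submodule R N := (pw h a M).map f
  -- `range φ ≤ N0 + ...`
  have h1 : L.len (LinearMap.range φ) ≤ L.len N0 + L.len (LinearMap.range (N0.mkQ ∘ₗ φ)) := by
    let q : LinearMap.range φ →ₗ[R] (N ⧸ N0) := N0.mkQ ∘ₗ (LinearMap.range φ).subtype
    rw [len_ker_range L q]
    refine add_le_add ?_ ?_
    · refine len_le_of_inj L (LinearMap.codRestrict N0
        ((LinearMap.range φ).subtype ∘ₗ (LinearMap.ker q).subtype) ?_) ?_
      · intro x
        have hx : N0.mkQ (x.1.1) = 0 := x.2
        rwa [Submodule.mkQ_apply, Submodule.Quotient.mk_eq_zero] at hx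
      · intro x y hxy
        have h5 : x.1.1 = y.1.1 := congrArg (fun z : N0 => (z : N)) hxy
        exact Subtype.ext (Subtype.ext h5)
    · refine len_sub_mono L ?_
      rintro _ ⟨⟨_, ⟨x, rfl⟩⟩, rfl⟩
      exact ⟨x, rfl⟩
  refine h1.trans (add_le_add ?_ ?_)
  · have : L.len (LinearMap.range (f ∘ₗ (pw h a M).subtype)) ≤ L.len (pw h a M) :=
      len_range_le L _
    rwa [LinearMap.range_comp, Submodule.range_subtype] at this
  · -- `P → N / N0` factors through `g : P → h ^ b K`
    let g' : P →ₗ[R] pw h b K := g.restrict (fun x hx => hx)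
    have hker : LinearMap.ker g' ≤ LinearMap.ker (N0.mkQ ∘ₗ φ) := by
      intro x hx
      have hx1 : g x.1 = 0 := congrArg Subtype.val hx
      obtain ⟨y, hy⟩ := (hfg _).1 hx1
      show N0.mkQ (h ^ a • x.1) = 0
      rw [Submodule.mkQ_apply, Submodule.Quotient.mk_eq_zero, ← hy, ← map_smul]
      exact Submodule.mem_map_of_mem (mem_pw.2 ⟨y, rfl⟩)
    rw [← len_congr L (N0.mkQ ∘ₗ φ).quotKerEquivRange]
    calc L.len (P ⧸ LinearMap.ker (N0.mkQ ∘ₗ φ)) ≤ L.len (P ⧸ LinearMap.ker g') :=
          len_le_of_surj L (Submodule.factor hker) (Submodule.factor_surjective hker)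
      _ = L.len (LinearMap.range g') := len_congr L g'.quotKerEquivRange
      _ ≤ _ := len_sub_le L _

end Basic

section Stab

variable {R : Type u} [CommRing R]

/-- the stabilised additive length. -/
noncomputable def stab (L : AddLen R) (h : R) : AddLen R where
  len M _ _ := ⨅ c : ℕ, L.len (pw h c M)
  zero := by
    refine le_antisymm (iInf_le_of_le 0 ?_) bot_le
    refine (len_sub_le L _).trans ?_
    rw [L.zero]
  add {M N K} _ _ _ _ _ _ f g hf hg hfg := by
    rw [iInf_add_of_antitone (len_pw_anti L h) (len_pw_anti L h)]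
    refine le_antisymm ?_ ?_
    · refine le_iInf fun c => ?_
      exact iInf_le_of_le (c + c) (len_pw_le L h c c f g hfg)
    · exact iInf_mono fun c => len_pw_ge L h c f g hf hg hfg

variable (L : AddLen R) (h : R) {M N : Type u} [AddCommGroup M] [Module R M]
  [AddCommGroup N] [Module R N]

theorem stab_len (M : Type u) [AddCommGroup M] [Module R M] :
    (stab L h).len M = ⨅ c : ℕ, L.len (pw h c M) := rfl

theorem stab_le (M : Type u) [AddCommGroup M] [Module R M] : (stab L h).len M ≤ L.len M :=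
  iInf_le_of_le 0 (len_sub_le L _)

theorem stab_le_pw (c : ℕ) (M : Type u) [AddCommGroup M] [Module R M] :
    (stab L h).len M ≤ L.len (pw h c M) :=
  iInf_le _ c

/-- the stabilised length only sees `h ^ c M`. -/
theorem stab_eq_zero_of_len {c : ℕ} (hc : L.len (pw h c M) = 0) : (stab L h).len M = 0 :=
  le_antisymm ((stab_le_pw L h c M).trans hc.le) bot_le

/-- modules killed by a power of `h` have stabilised length zero. -/
theorem stab_eq_zero {c : ℕ} (hc : ∀ x : M, h ^ c • x = 0) : (stab L h).len M = 0 := by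
  refine stab_eq_zero_of_len L h (c := c) ?_
  have : Subsingleton (pw h c M) := by
    refine ⟨fun a b => Subtype.ext ?_⟩
    obtain ⟨y, hy⟩ := mem_pw.1 a.2
    obtain ⟨z, hz⟩ := mem_pw.1 b.2
    rw [← hy, ← hz, hc, hc]
  exact len_subsingleton_aux L

end Stab

end Vale.Agent.P177.Lim
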