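import Vale.Agent.P177.Lim.Stab
import Vale.Agent.P177.TorShift

/-!
P177, block LIM / NULL: modules of length zero, maps with kernel and cokernel of length zero,
invariance of the lengths of Tor.
-/

namespace Vale.Agent.P177.Lim

open Vale.Agent.P202.Mix
open scoped ENNReal TensorProduct

universe u

section NIso

variable {R : Type u} [CommRing R] (L : AddLen R)
variable {M N K : Type u} [AddCommGroup M] [Module R M]
  [AddCommGroup N] [Module R N] [AddCommGroup K] [Module R K]

theorem null_of_inj (f : M →ₗ[R] N) (hf : Function.Injective f) (h : L.len N = 0) :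
    L.len M = 0 := le_antisymm ((len_le_of_inj L f hf).trans h.le) bot_le

theorem null_of_surj (f : M →ₗ[R] N) (hf : Function.Surjective f) (h : L.len M = 0) :
    L.len N = 0 := le_antisymm ((len_le_of_surj L f hf).trans h.le) bot_le

theorem null_sub (X : Submodule R M) (h : L.len M = 0) : L.len X = 0 :=
  null_of_inj L X.subtype X.injective_subtype h

theorem null_quot (X : Submodule R M) (h : L.len M = 0) : L.len (M ⧸ X) = 0 :=
  null_of_surj L X.mkQ X.mkQ_surjective h

theorem null_of_exact (f : M →ₗ[R] N) (g : N →ₗ[R] K) (hfg : Function.Exact f g)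
    (hM : L.len M = 0) (hK : L.len K = 0) : L.len N = 0 := by
  refine le_antisymm ((len_le_of_exact L f g hfg).trans ?_) bot_le
  rw [hM, hK, add_zero]

theorem null_of_le {X Y : Submodule R M} (h : X ≤ Y) (hY : L.len Y = 0) : L.len X = 0 :=
  le_antisymm ((len_sub_mono L h).trans hY.le) bot_le

theorem null_of_sub_quot (X : Submodule R M) (h1 : L.len X = 0) (h2 : L.len (M ⧸ X) = 0) :
    L.len M = 0 := by rw [len_sub_quot L X, h1, h2, add_zero]

theorem null_pi {ι : Type} [Fintype ι] (h : L.len M = 0) : L.len (ι → M) = 0 := by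
  rw [len_pi, h, mul_zero]

/-- exact sequence with outer terms null: the middle map is a null-isomorphism; equal lengths. -/
structure NIso (f : M →ₗ[R] N) : Prop where
  ker : L.len (LinearMap.ker f) = 0
  coker : L.len (N ⧸ LinearMap.range f) = 0

variable {L}

theorem NIso.len_eq {f : M →ₗ[R] N} (h : NIso L f) : L.len M = L.len N := by
  rw [len_ker_range L f, h.ker, zero_add, len_sub_quot L (LinearMap.range f), h.coker, add_zero]

theorem NIso.of_bij {f : M →ₗ[R] N} (h1 : Function.Injective f) (h2 : Function.Surjective f) :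
    NIso L f := by
  constructor
  · rw [LinearMap.ker_eq_bot.2 h1]
    exact len_subsingleton_aux L
  · rw [LinearMap.range_eq_top.2 h2]
    have : Subsingleton (N ⧸ (⊤ : Submodule R N)) := Submodule.Quotient.subsingleton_iff.2 rfl
    exact len_subsingleton_aux L

theorem NIso.of_equiv (e : M ≃ₗ[R] N) : NIso L (e : M →ₗ[R] N) :=
  NIso.of_bij e.injective e.surjective

theorem NIso.comp {f : M →ₗ[R] N} {g : N →ₗ[R] K} (hf : NIso L f) (hg : NIso L g) :
    NIso L (g ∘ₗ f) := by
  constructor
  · -- `ker f → ker (g f) → ker g`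
    let a : LinearMap.ker (g ∘ₗ f) →ₗ[R] LinearMap.ker g :=
      f.restrict fun x hx => hx
    let b : LinearMap.ker f →ₗ[R] LinearMap.ker (g ∘ₗ f) :=
      Submodule.inclusion fun x hx => by
        show g (f x) = 0
        rw [LinearMap.mem_ker.1 hx, map_zero]
    refine null_of_exact L b a ?_ hf.ker hg.ker
    intro x
    constructor
    · intro hx
      have h1 : f x.1 = 0 := congrArg Subtype.val hx
      exact ⟨⟨x.1, h1⟩, Subtype.ext rfl⟩
    · rintro ⟨y, rfl⟩
      exact Subtype.ext y.2
  · -- `coker f → coker (g f) → coker g`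
    let a : (N ⧸ LinearMap.range f) →ₗ[R] (K ⧸ LinearMap.range (g ∘ₗ f)) :=
      Submodule.mapQ _ _ g (by
        rintro _ ⟨x, rfl⟩
        exact ⟨x, rfl⟩)
    let b : (K ⧸ LinearMap.range (g ∘ₗ f)) →ₗ[R] (K ⧸ LinearMap.range g) :=
      Submodule.factor (LinearMap.range_comp_le_range f g)
    refine null_of_exact L a b ?_ hf.coker hg.coker
    intro x
    obtain ⟨x, rfl⟩ := Submodule.Quotient.mk_surjective _ x
    constructor
    · intro hx
      have h1 : (Submodule.Quotient.mk x : K ⧸ LinearMap.range g) = 0 := hx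
      rw [Submodule.Quotient.mk_eq_zero] at h1
      obtain ⟨y, rfl⟩ := h1
      exact ⟨Submodule.Quotient.mk y, rfl⟩
    · rintro ⟨y, hy⟩
      obtain ⟨y, rfl⟩ := Submodule.Quotient.mk_surjective _ y
      rw [← hy]
      show (Submodule.Quotient.mk (g y) : K ⧸ LinearMap.range g) = 0
      rw [Submodule.Quotient.mk_eq_zero]
      exact ⟨y, rfl⟩

/-- a surjection with null kernel. -/
theorem NIso.of_surj {f : M →ₗ[R] N} (h1 : L.len (LinearMap.ker f) = 0)
    (h2 : Function.Surjective f) : NIso L f :=
  ⟨h1, (NIso.of_bij (L := L) (f := LinearMap.id (R := R) (M := N)) (fun _ _ h => h)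
    (fun x => ⟨x, rfl⟩)).coker ▸ by
      rw [LinearMap.range_eq_top.2 h2, LinearMap.range_id]⟩

/-- an injection with null cokernel. -/
theorem NIso.of_inj {f : M →ₗ[R] N} (h1 : Function.Injective f)
    (h2 : L.len (N ⧸ LinearMap.range f) = 0) : NIso L f :=
  ⟨by rw [LinearMap.ker_eq_bot.2 h1]; exact len_subsingleton_aux L, h2⟩

/-- a map in an exact sequence between null modules. -/
theorem NIso.of_exact {M' K' : Type u} [AddCommGroup M'] [Module R M'] [AddCommGroup K']
    [Module R K'] {a : M' →ₗ[R] M} {f : M →ₗ[R] N} {b : N →ₗ[R] K'} (h1 : Function.Exact a f)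
    (h2 : Function.Exact f b) (ha : L.len M' = 0) (hb : L.len K' = 0) : NIso L f := by
  constructor
  · have : LinearMap.ker f = LinearMap.range a := by
      rw [LinearMap.exact_iff] at h1
      exact h1
    rw [this]
    exact le_antisymm ((len_range_le L a).trans ha.le) bot_le
  · have : LinearMap.ker b = LinearMap.range f := by
      rw [LinearMap.exact_iff] at h2
      exact h2
    rw [← this, len_congr L b.quotKerEquivRange]
    exact null_sub L _ hb

/-- reduction modulo an element. -/
theorem NIso.quot {f : M →ₗ[R] N} (hf : NIso L f) (X : Submodule R M) (Y : Submodule R N)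
    (hXY : X ≤ Y.comap f) (a : R) (hX : ∀ x : M, a • x ∈ X)
    (hY : ∀ y ∈ Y, ∃ z : N, y = a • z) : NIso L (Submodule.mapQ X Y f hXY) := by
  constructor
  · -- the kernel is the image of `{(x, z) | f x = a z}`; the class of `z` in the cokernel
    -- of `f` is zero iff `x ∈ X + ker f`
    let E : Submodule R (M × N) := LinearMap.ker
      (f.comp (LinearMap.fst R M N) - (LinearMap.lsmul R N a).comp (LinearMap.snd R M N))
    have hE : ∀ p : M × N, p ∈ E ↔ f p.1 = a • p.2 := by
      intro p
      show f p.1 - a • p.2 = 0 ↔ _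
      rw [sub_eq_zero]
    -- the map `E → M / X`
    let q : E →ₗ[R] (M ⧸ X) := X.mkQ ∘ₗ LinearMap.fst R M N ∘ₗ E.subtype
    have h1 : LinearMap.ker (Submodule.mapQ X Y f hXY) ≤ LinearMap.range q := by
      intro x hx
      obtain ⟨x, rfl⟩ := Submodule.Quotient.mk_surjective _ x
      have h2 : (Submodule.Quotient.mk (f x) : N ⧸ Y) = 0 := hx
      rw [Submodule.Quotient.mk_eq_zero] at h2
      obtain ⟨z, hz⟩ := hY _ h2
      exact ⟨⟨(x, z), (hE _).2 hz⟩, rfl⟩
    refine null_of_le L h1 ?_
    -- `E → coker f`, with kernel mapping to the image of `ker f`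
    let s : E →ₗ[R] (N ⧸ LinearMap.range f) :=
      (LinearMap.range f).mkQ ∘ₗ LinearMap.snd R M N ∘ₗ E.subtype
    have h3 : L.len (LinearMap.range q) ≤
        L.len (LinearMap.range s) + L.len (LinearMap.ker f) := by
      rw [← len_congr L q.quotKerEquivRange, ← len_congr L s.quotKerEquivRange]
      -- `(ker s + ker q) / ker q` is a quotient of `ker f`
      have h4 : L.len (E ⧸ LinearMap.ker q) ≤
          L.len (E ⧸ LinearMap.ker s) + L.rl (LinearMap.ker q) (LinearMap.ker s) := by
        rw [← rl_top L, ← rl_top L, add_comm]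
        exact rl_le_add L _ _ _
      refine h4.trans (add_le_add le_rfl ?_)
      -- a map `ker s → (ker f) / (ker f ∩ X)`
      let K0 : Submodule R (M ⧸ X) := (LinearMap.ker f).map X.mkQ
      have h5 : ∀ p ∈ LinearMap.ker s, q p ∈ K0 := by
        intro p hp
        have h6 : (Submodule.Quotient.mk p.1.2 : N ⧸ LinearMap.range f) = 0 := hp
        rw [Submodule.Quotient.mk_eq_zero] at h6
        obtain ⟨y, hy⟩ := h6
        refine ⟨p.1.1 - a • y, ?_, ?_⟩
        · show f (p.1.1 - a • y) = 0
          rw [map_sub, map_smul, hy, (hE _).1 p.2, sub_self]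
        · show X.mkQ (p.1.1 - a • y) = X.mkQ p.1.1
          rw [map_sub, sub_eq_self, Submodule.mkQ_apply, Submodule.Quotient.mk_eq_zero]
          exact hX y
      let r : LinearMap.ker s →ₗ[R] K0 := q.restrict h5
      have h7 : L.rl (LinearMap.ker q) (LinearMap.ker s) = L.len (LinearMap.range r) := by
        refine rl_eq_len_aux L r.rangeRestrict r.surjective_rangeRestrict ?_
        rw [LinearMap.ker_rangeRestrict]
        ext p
        constructor
        · intro hp
          exact congrArg Subtype.val hp
        · intro hp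
          exact Subtype.ext hp
      rw [h7]
      refine (len_sub_le L _).trans ?_
      have h8 := len_range_le L (X.mkQ ∘ₗ (LinearMap.ker f).subtype)
      rwa [LinearMap.range_comp, Submodule.range_subtype] at h8
    refine le_antisymm (h3.trans ?_) bot_le
    rw [hf.ker, add_zero]
    exact (null_sub L _ hf.coker).le
  · -- cokernel
    have h1 : LinearMap.range f ≤
        (LinearMap.range (Submodule.mapQ X Y f hXY)).comap Y.mkQ := by
      rintro _ ⟨x, rfl⟩
      exact ⟨Submodule.Quotient.mk x, rfl⟩
    refine null_of_surj L (Submodule.mapQ (LinearMap.range f)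
      (LinearMap.range (Submodule.mapQ X Y f hXY)) Y.mkQ h1) ?_ hf.coker
    intro z
    obtain ⟨z, rfl⟩ := Submodule.Quotient.mk_surjective _ z
    obtain ⟨z, rfl⟩ := Submodule.Quotient.mk_surjective _ z
    exact ⟨Submodule.Quotient.mk z, rfl⟩

end NIso

section Tor

variable {D : Type u} [CommRing D] (L : AddLen D)
variable {S : Type u} [CommRing S] [Algebra S D]

/-- a finite free cover after a flat base change. -/
theorem exists_cover_base [IsNoetherianRing S] [Module.Flat S D] (A : Type u) [AddCommGroup A]
    [Module S A] [Module.Finite S A] :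
    ∃ (m : ℕ) (K : Type u) (_ : AddCommGroup K) (_ : Module S K) (_ : Module.Finite S K)
      (f : D ⊗[S] K →ₗ[D] (Fin m → D)) (g : (Fin m → D) →ₗ[D] D ⊗[S] A),
      Function.Injective f ∧ Function.Surjective g ∧ Function.Exact f g := by
  obtain ⟨m, K, g, hg, hKg⟩ := exists_finite_free_cover (R := S) A
  have hfin : Module.Finite S K := Module.Finite.of_fg (IsNoetherian.noetherian K)
  let e : (D ⊗[S] (Fin m → S)) ≃ₗ[D] (Fin m → D) := TensorProduct.piScalarRight S D D (Fin m)
  refine ⟨m, K, inferInstance, inferInstance, hfin,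
    e.toLinearMap ∘ₗ (K.subtype.baseChange D), (g.baseChange D) ∘ₗ e.symm.toLinearMap, ?_, ?_, ?_⟩
  · refine e.injective.comp ?_
    have := Module.Flat.lTensor_preserves_injective_linearMap (M := D) K.subtype
      K.injective_subtype
    exact this
  · intro y
    obtain ⟨z, hz⟩ := LinearMap.lTensor_surjective D hg y
    refine ⟨e z, ?_⟩
    show g.lTensor D (e.symm (e z)) = y
    rw [LinearEquiv.symm_apply_apply]
    exact hz
  · have h1 : Function.Exact (K.subtype.lTensor D) (g.lTensor D) := lTensor_exact D hKg hg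
    intro x
    constructor
    · intro hx
      obtain ⟨y, hy⟩ := (h1 (e.symm x)).1 hx
      refine ⟨y, ?_⟩
      show e (K.subtype.lTensor D y) = x
      rw [hy, LinearEquiv.apply_symm_apply]
    · rintro ⟨y, rfl⟩
      show g.lTensor D (e.symm (e (K.subtype.lTensor D y))) = 0
      rw [LinearEquiv.symm_apply_apply]
      exact (h1 _).2 ⟨y, rfl⟩

variable {L}

/-- Tor of a null module (second variable) against a finite module is null. -/
theorem null_tor [IsNoetherianRing S] [Module.Flat S D] (n : ℕ) :
    ∀ (A : Type u) [AddCommGroup A] [Module S A] [Module.Finite S A]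
    (Z : Type u) [AddCommGroup Z] [Module D Z], L.len Z = 0 →
      L.len (TorM D n (D ⊗[S] A) Z) = 0 := by
  -- degree zero
  have h0 : ∀ (A : Type u) [AddCommGroup A] [Module S A] [Module.Finite S A]
    (Z : Type u) [AddCommGroup Z] [Module D Z], L.len Z = 0 →
      L.len ((D ⊗[S] A) ⊗[D] Z) = 0 := by
    intro A _ _ _ Z _ _ hZ
    obtain ⟨m, K, _, _, _, f, g, hf, hg, hfg⟩ := exists_cover_base (S := S) (D := D) A
    have hs : Function.Surjective (g.rTensor Z) := LinearMap.rTensor_surjective Z hg
    refine null_of_surj L (g.rTensor Z) hs ?_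
    have e : ((Fin m → D) ⊗[D] Z) ≃ₗ[D] (Fin m → Z) :=
      (TensorProduct.comm D _ _) ≪≫ₗ (TensorProduct.piScalarRight D D Z (Fin m))
    rw [len_congr L e]
    exact null_pi L hZ
  induction n with
  | zero =>
    intro A _ _ _ Z _ _ hZ
    rw [len_congr L (torZero (D ⊗[S] A) Z)]
    exact h0 A Z hZ
  | succ n ih =>
    intro A _ _ _ Z _ _ hZ
    obtain ⟨m, K, _, _, _, f, g, hf, hg, hfg⟩ := exists_cover_base (S := S) (D := D) A
    cases n with
    | zero =>
      obtain ⟨e⟩ := tor_one f g hf hg hfg Z
      exact null_of_inj L ((LinearMap.ker (f.rTensor Z)).subtype ∘ₗ e.toLinearMap)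
        (Subtype.val_injective.comp e.injective) (h0 K Z hZ)
    | succ n =>
      obtain ⟨e⟩ := tor_shift f g hf hg hfg Z n
      rw [len_congr L e]
      exact ih K Z hZ

/-- the same in the first variable. -/
theorem null_tor' [IsNoetherianRing S] [Module.Flat S D] (n : ℕ)
    (A : Type u) [AddCommGroup A] [Module S A] [Module.Finite S A]
    (Z : Type u) [AddCommGroup Z] [Module D Z] (hZ : L.len Z = 0) :
      L.len (TorM D n Z (D ⊗[S] A)) = 0 := by
  obtain ⟨e⟩ := tor_symm (R := D) n Z (D ⊗[S] A)
  rw [len_congr L e]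
  exact null_tor n A Z hZ

/-- Tor of a null-isomorphism: a chain of null-isomorphisms, hence the same lengths. -/
theorem NIso.tor_nIso' [IsNoetherianRing S] [Module.Flat S D] {X Y : Type u} [AddCommGroup X]
    [Module D X] [AddCommGroup Y] [Module D Y] {f : X →ₗ[D] Y} (hf : NIso L f) (n : ℕ)
    (A : Type u) [AddCommGroup A] [Module S A] [Module.Finite S A] :
    NIso L (torMap n f (D ⊗[S] A)) := by
  -- `X → range f`
  have h1 : NIso L (torMap n f.rangeRestrict (D ⊗[S] A)) := by
    obtain ⟨δ, hδ1, hδ2, hδ3⟩ := exists_torDelta (LinearMap.ker f).subtype f.rangeRestrict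
      (Submodule.injective_subtype _) f.surjective_rangeRestrict (by
        rw [LinearMap.exact_iff, Submodule.range_subtype, LinearMap.ker_rangeRestrict])
      (D ⊗[S] A)
    cases n with
    | zero =>
      refine ⟨?_, ?_⟩
      · have := hδ3 0
        rw [LinearMap.exact_iff] at this
        rw [this]
        exact le_antisymm ((len_range_le L _).trans (null_tor' 0 A _ hf.ker).le) bot_le
      · -- surjective in degree zero
        have hs : Function.Surjective (torMap 0 f.rangeRestrict (D ⊗[S] A)) := by
          intro y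
          obtain ⟨z, hz⟩ := LinearMap.rTensor_surjective (D ⊗[S] A)
            f.surjective_rangeRestrict (torZero _ _ y)
          refine ⟨(torZero _ _).symm z, ?_⟩
          apply (torZero _ _).injective
          rw [torZero_naturality, LinearEquiv.apply_symm_apply, hz]
        rw [LinearMap.range_eq_top.2 hs]
        have : Subsingleton ((TorM D 0 (LinearMap.range f) (D ⊗[S] A)) ⧸
          (⊤ : Submodule D (TorM D 0 (LinearMap.range f) (D ⊗[S] A)))) :=
          Submodule.Quotient.subsingleton_iff.2 rfl
        exact len_subsingleton_aux L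
    | succ n =>
      exact NIso.of_exact (hδ3 (n + 1)) (hδ1 n) (null_tor' (n + 1) A _ hf.ker)
        (null_tor' n A _ hf.ker)
  -- `range f → Y`
  have h2 : NIso L (torMap n (LinearMap.range f).subtype (D ⊗[S] A)) := by
    obtain ⟨δ, hδ1, hδ2, hδ3⟩ := exists_torDelta (LinearMap.range f).subtype
      (LinearMap.range f).mkQ (Submodule.injective_subtype _) (Submodule.mkQ_surjective _) (by
        rw [LinearMap.exact_iff, Submodule.range_subtype, Submodule.ker_mkQ])
      (D ⊗[S] A)
    exact NIso.of_exact (hδ2 n) (hδ3 n) (null_tor' (n + 1) A _ hf.coker)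
        (null_tor' n A _ hf.coker)
  have h3 := h1.comp h2
  rw [← torMap_comp] at h3
  exact h3

theorem NIso.tor_len [IsNoetherianRing S] [Module.Flat S D] {X Y : Type u} [AddCommGroup X]
    [Module D X] [AddCommGroup Y] [Module D Y] {f : X →ₗ[D] Y} (hf : NIso L f) (n : ℕ)
    (A : Type u) [AddCommGroup A] [Module S A] [Module.Finite S A] :
    L.len (TorM D n (D ⊗[S] A) X) = L.len (TorM D n (D ⊗[S] A) Y) := by
  obtain ⟨e1⟩ := tor_symm (R := D) n (D ⊗[S] A) X
  obtain ⟨e2⟩ := tor_symm (R := D) n (D ⊗[S] A) Y
  rw [len_congr L e1, len_congr L e2]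
  exact (hf.tor_nIso' n A).len_eq

end Tor

end Vale.Agent.P177.Lim
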